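import Vale.Agent.P336.Mix

/-!
# P336: a good colouring of the bottom gates (first and second moments)
-/

namespace Vale.Agent.P336

open Finset

variable {V : Type*} [Fintype V] [DecidableEq V] {ι : Type*} [Fintype ι] [DecidableEq ι]

theorem sum_ind {t : ℕ} (ht : 0 < t) (A : Finset ι) (c : Fin t) :
    (∑ φ : ι → Fin t, (if ∀ j ∈ A, φ j = c then (1 : ℝ) else 0)) =
      (t : ℝ) ^ (Fintype.card ι) * ((t : ℝ)⁻¹) ^ A.card := by
  have h1 : (univ.filter fun φ : ι → Fin t => ∀ j ∈ A, φ j = c) =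
      Fintype.piFinset (fun j => if j ∈ A then {c} else univ) := by
    ext φ
    simp only [mem_filter, mem_univ, true_and, Fintype.mem_piFinset]
    constructor
    · intro h j
      by_cases hj : j ∈ A
      · simp [hj, h j hj]
      · simp [hj]
    · intro h j hj
      have := h j
      simpa [hj] using this
  rw [Finset.sum_boole, h1, Fintype.card_piFinset]
  have h2 : (∏ j : ι, (if j ∈ A then ({c} : Finset (Fin t)) else univ).card) =
      t ^ (Fintype.card ι - A.card) := by
    have : ∀ j : ι, (if j ∈ A then ({c} : Finset (Fin t)) else univ).card =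
        if j ∈ A then 1 else t := by
      intro j
      split_ifs <;> simp
    rw [Finset.prod_congr rfl (fun j _ => this j), Finset.prod_ite]
    simp only [Finset.prod_const_one, one_mul, Finset.prod_const]
    congr 1
    rw [Finset.filter_not, Finset.card_sdiff_of_subset (Finset.filter_subset _ _)]
    simp
  rw [h2]
  have hA : A.card ≤ Fintype.card ι := Finset.card_le_univ A
  have ht' : (t : ℝ) ≠ 0 := by positivity
  push_cast
  rw [inv_pow, ← div_eq_mul_inv, eq_div_iff (pow_ne_zero _ ht'), ← pow_add, Nat.sub_add_cancel hA]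

theorem min_ge {X D l : ℝ} (hX : 0 ≤ X) (hD : 0 < D) (h0 : 0 ≤ l) (h1 : l ≤ 1) :
    l * X - l ^ 2 * X ^ 2 / (4 * D) ≤ min X D := by
  refine le_min ?_ ?_
  · have : 0 ≤ l ^ 2 * X ^ 2 / (4 * D) := by positivity
    nlinarith
  · rw [sub_le_iff_le_add, ← sub_le_iff_le_add', le_div_iff₀ (by positivity)]
    nlinarith [sq_nonneg (l * X - 2 * D)]

/-- a good colouring exists -/
theorem exists_colouring {t D : ℕ} (ht : 0 < t) (hD : 0 < D) (T : ι → Finset V) (U : Finset V)
    (hμ : (D : ℝ) / 2 ≤ ∑ v ∈ U, ((t : ℝ)⁻¹) ^ (J T v).card)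
    (hover : ∀ v ∈ U, (U.filter fun v' => ¬ Disjoint (J T v) (J T v')).card ≤ D) :
    ∃ φ : ι → Fin t, (5 / 16 : ℝ) * t * D ≤ ((∑ c, min (W T φ c).card D : ℕ) : ℝ) := by
  set μ : ℝ := ∑ v ∈ U, ((t : ℝ)⁻¹) ^ (J T v).card with hμdef
  have htR : (0 : ℝ) < t := by exact_mod_cast ht
  have hDR : (0 : ℝ) < D := by exact_mod_cast hD
  have hμ0 : 0 < μ := by linarith [half_pos hDR]
  set τ : ℝ := (t : ℝ)⁻¹ with hτ
  have hτ0 : 0 < τ := by positivity
  have hτ1 : τ ≤ 1 := by
    rw [hτ]
    apply inv_le_one_of_one_le₀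
    exact_mod_cast ht
  set N : ℝ := (t : ℝ) ^ (Fintype.card ι) with hN
  have hN0 : 0 < N := by positivity
  let ind : Finset ι → Fin t → (ι → Fin t) → ℝ := fun A c φ => if ∀ j ∈ A, φ j = c then 1 else 0
  have hind : ∀ A c, ∑ φ, ind A c φ = N * τ ^ A.card := fun A c => sum_ind ht A c
  have hmul : ∀ A B c φ, ind A c φ * ind B c φ = ind (A ∪ B) c φ := by
    intro A B c φ
    by_cases hA : ∀ j ∈ A, φ j = c
    · by_cases hB : ∀ j ∈ B, φ j = c
      · have : ∀ j ∈ A ∪ B, φ j = c := fun j hj => (mem_union.1 hj).elim (hA j) (hB j)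
        simp only [ind, if_pos hA, if_pos hB, if_pos this, one_mul]
      · have : ¬ ∀ j ∈ A ∪ B, φ j = c := fun h => hB fun j hj => h j (mem_union_right _ hj)
        simp only [ind, if_neg hB, if_neg this, mul_zero]
    · have : ¬ ∀ j ∈ A ∪ B, φ j = c := fun h => hA fun j hj => h j (mem_union_left _ hj)
      simp only [ind, if_neg hA, if_neg this, zero_mul]
  let X : Fin t → (ι → Fin t) → ℝ := fun c φ => ∑ v ∈ U, ind (J T v) c φ
  have hX0 : ∀ c φ, 0 ≤ X c φ := by
    intro c φ
    refine Finset.sum_nonneg fun v _ => ?_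
    simp only [ind]
    split_ifs <;> norm_num
  have hXW : ∀ c φ, X c φ ≤ ((W T φ c).card : ℝ) := by
    intro c φ
    have : X c φ = ((U.filter fun v => ∀ j ∈ J T v, φ j = c).card : ℝ) := by
      simp only [X, ind, Finset.sum_boole]
    rw [this]
    have : (U.filter fun v => ∀ j ∈ J T v, φ j = c) ⊆ W T φ c := by
      intro v hv
      simp only [mem_filter, J, mem_univ, true_and] at hv
      simp only [W, mem_filter, mem_univ, true_and]
      exact hv.2
    exact_mod_cast Finset.card_le_card this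
  have hX1 : ∀ c, ∑ φ, X c φ = N * μ := by
    intro c
    simp only [X]
    rw [Finset.sum_comm]
    simp only [hind]
    rw [← Finset.mul_sum]
  have hX2 : ∀ c, ∑ φ, (X c φ) ^ 2 ≤ N * (μ ^ 2 + D * μ) := by
    intro c
    have h1 : ∑ φ, (X c φ) ^ 2 = N * ∑ v ∈ U, ∑ v' ∈ U, τ ^ (J T v ∪ J T v').card := by
      have : ∀ φ, (X c φ) ^ 2 = ∑ v ∈ U, ∑ v' ∈ U, ind (J T v ∪ J T v') c φ := by
        intro φ
        rw [sq, Finset.sum_mul_sum]
        exact Finset.sum_congr rfl fun v _ => Finset.sum_congr rfl fun v' _ => hmul _ _ _ _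
      rw [Finset.sum_congr rfl fun φ _ => this φ, Finset.sum_comm, Finset.mul_sum]
      refine Finset.sum_congr rfl fun v _ => ?_
      rw [Finset.sum_comm, Finset.mul_sum]
      exact Finset.sum_congr rfl fun v' _ => hind _ _
    rw [h1]
    refine mul_le_mul_of_nonneg_left ?_ hN0.le
    have h2 : ∀ v ∈ U, ∑ v' ∈ U, τ ^ (J T v ∪ J T v').card ≤
        τ ^ (J T v).card * μ + D * τ ^ (J T v).card := by
      intro v hv
      have h3 : ∀ v' ∈ U, τ ^ (J T v ∪ J T v').card ≤ τ ^ (J T v).card * τ ^ (J T v').card +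
          (if ¬ Disjoint (J T v) (J T v') then 1 else 0) * τ ^ (J T v).card := by
        intro v' _
        by_cases hd : Disjoint (J T v) (J T v')
        · rw [Finset.card_union_of_disjoint hd, pow_add]
          simp [hd]
        · have : τ ^ (J T v ∪ J T v').card ≤ τ ^ (J T v).card :=
            pow_le_pow_of_le_one hτ0.le hτ1 (Finset.card_le_card Finset.subset_union_left)
          have h4 : 0 ≤ τ ^ (J T v).card * τ ^ (J T v').card := by positivity
          simp only [hd, not_false_eq_true, if_true, one_mul]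
          linarith
      refine (Finset.sum_le_sum h3).trans ?_
      rw [Finset.sum_add_distrib, ← Finset.mul_sum, ← Finset.sum_mul, Finset.sum_boole]
      have := hover v hv
      have h5 : ((U.filter fun v' => ¬ Disjoint (J T v) (J T v')).card : ℝ) ≤ D := by
        exact_mod_cast this
      have h6 : 0 ≤ τ ^ (J T v).card := by positivity
      nlinarith
    refine (Finset.sum_le_sum h2).trans (le_of_eq ?_)
    rw [Finset.sum_add_distrib, ← Finset.sum_mul, ← Finset.mul_sum]
    rw [← hμdef]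
    ring
  by_contra hcon
  push Not at hcon
  -- the tangent parameter
  set l : ℝ := D / (2 * μ) with hl
  have hl0 : 0 ≤ l := by positivity
  have hl1 : l ≤ 1 := by
    rw [hl, div_le_one (by positivity)]
    linarith
  have hlμ : l * μ = D / 2 := by
    rw [hl]
    field_simp
  have hlow : ∀ φ, ∑ c, (l * X c φ - l ^ 2 * (X c φ) ^ 2 / (4 * D)) < (5 / 16 : ℝ) * t * D := by
    intro φ
    refine lt_of_le_of_lt ?_ (hcon φ)
    push_cast
    refine Finset.sum_le_sum fun c _ => ?_
    refine (min_ge (hX0 c φ) hDR hl0 hl1).trans ?_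
    exact min_le_min (hXW c φ) le_rfl
  have hne : Nonempty (ι → Fin t) := ⟨fun _ => ⟨0, ht⟩⟩
  have hsum := Finset.sum_lt_sum_of_nonempty (s := (univ : Finset (ι → Fin t))) univ_nonempty
    (fun φ _ => hlow φ)
  rw [Finset.sum_const, Finset.card_univ, Fintype.card_fun, Fintype.card_fin, nsmul_eq_mul,
    Finset.sum_comm] at hsum
  push_cast at hsum
  have hge : ∀ c : Fin t, N * (5 / 16 * D) ≤
      ∑ φ, (l * X c φ - l ^ 2 * (X c φ) ^ 2 / (4 * D)) := by
    intro c
    rw [Finset.sum_sub_distrib, ← Finset.mul_sum, ← Finset.sum_div, ← Finset.mul_sum, hX1 c]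
    have h2 := hX2 c
    have h3 : l ^ 2 * ∑ φ, (X c φ) ^ 2 / (4 * D) ≤ l ^ 2 * (N * (μ ^ 2 + D * μ)) / (4 * D) := by
      rw [← Finset.sum_div, mul_div_assoc]
      refine mul_le_mul_of_nonneg_left ?_ (sq_nonneg l)
      exact div_le_div_of_nonneg_right h2 (by positivity)
    have h3' : l ^ 2 * (∑ φ, (X c φ) ^ 2) / (4 * D) ≤ l ^ 2 * (N * (μ ^ 2 + D * μ)) / (4 * D) := by
      refine div_le_div_of_nonneg_right ?_ (by positivity)
      exact mul_le_mul_of_nonneg_left h2 (sq_nonneg l)
    have h4 : l ^ 2 * (N * (μ ^ 2 + D * μ)) / (4 * D) ≤ N * (3 / 16 * D) := by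
      have h5 : l ^ 2 * (N * (μ ^ 2 + D * μ)) / (4 * D) = N * ((l * μ) ^ 2 / (4 * D) +
          l * (l * μ) / 4) := by
        field_simp
      rw [h5, hlμ]
      refine mul_le_mul_of_nonneg_left ?_ hN0.le
      have : ((D : ℝ) / 2) ^ 2 / (4 * D) = D / 16 := by
        field_simp
        ring
      rw [this]
      nlinarith
    have h6 : l * (N * μ) = N * (D / 2) := by
      rw [← hlμ]; ring
    rw [h6]
    nlinarith
  have hge' : (t : ℝ) * (N * (5 / 16 * D)) ≤
      ∑ c : Fin t, ∑ φ, (l * X c φ - l ^ 2 * (X c φ) ^ 2 / (4 * D)) := by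
    have := Finset.sum_le_sum (s := (univ : Finset (Fin t))) fun c _ => hge c
    rw [Finset.sum_const, Finset.card_univ, Fintype.card_fin, nsmul_eq_mul] at this
    exact this
  have : (t : ℝ) * (N * (5 / 16 * D)) = (t : ℝ) ^ Fintype.card ι * (5 / 16 * t * D) := by
    rw [hN]; ring
  linarith

end Vale.Agent.P336
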