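import Mathlib

/-!
# P336: a code given by power sums, its distance and its size
-/

namespace Vale.Agent.P336

open Finset

/-- The bits of `x`, indexed by the elements of the finite field `K`, satisfy the first `D` power
sum equations: the sum of `a ^ j` over all `a` with `x a = 1` vanishes for every `j < D`. -/
def InCode {K : Type*} [Field K] [Fintype K] (D : ℕ) (x : K → Bool) : Prop :=
  ∀ j < D, ∑ a : K, (if x a = true then a ^ j else 0) = 0

variable {K : Type*} [Field K] [Fintype K] [DecidableEq K]

/-- two code words that differ in at most `D` places are equal -/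
theorem dist_code {D : ℕ} {x y : K → Bool} (hx : InCode D x) (hy : InCode D y)
    (h : (univ.filter fun a => x a ≠ y a).card ≤ D) : x = y := by
  classical
  set S := univ.filter fun a => x a ≠ y a with hS
  let c : K → K := fun a => (if x a = true then 1 else 0) - (if y a = true then 1 else 0)
  have hsum : ∀ j < D, ∑ a, c a * a ^ j = 0 := by
    intro j hj
    have h1 := hx j hj
    have h2 := hy j hj
    have : ∀ a, c a * a ^ j = (if x a = true then a ^ j else 0) - (if y a = true then a ^ j else 0) := by
      intro a
      simp only [c, sub_mul, ite_mul, one_mul, zero_mul]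
    rw [Finset.sum_congr rfl (fun a _ => this a), Finset.sum_sub_distrib, h1, h2, sub_zero]
  have hc0 : ∀ a, a ∉ S → c a = 0 := by
    intro a ha
    have : x a = y a := by
      by_contra hne
      exact ha (by simp [hS, hne])
    simp [c, this]
  have hc1 : ∀ a ∈ S, c a ≠ 0 := by
    intro a ha
    have : x a ≠ y a := by simpa [hS] using ha
    cases hxa : x a <;> cases hya : y a <;> simp_all [c]
  -- Vandermonde on `S`
  let e := S.equivFin.symm
  have hM : (Matrix.vandermonde (fun i : Fin S.card => ((e i : S) : K))).det ≠ 0 := by
    rw [Matrix.det_vandermonde_ne_zero_iff]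
    intro i i' hii
    exact e.injective (Subtype.ext hii)
  have hv : Matrix.vecMul (fun i : Fin S.card => c (e i))
      (Matrix.vandermonde (fun i : Fin S.card => ((e i : S) : K))) = 0 := by
    funext j
    simp only [Matrix.vecMul, dotProduct, Matrix.vandermonde_apply, Pi.zero_apply]
    have h1 := hsum j (lt_of_lt_of_le j.2 h)
    have h2 : ∑ a, c a * a ^ (j : ℕ) = ∑ a ∈ S, c a * a ^ (j : ℕ) := by
      symm
      apply Finset.sum_subset (Finset.subset_univ _)
      intro a _ ha
      rw [hc0 a ha, zero_mul]
    rw [h2, ← Finset.sum_coe_sort] at h1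
    rw [← h1]
    exact Equiv.sum_comp e (fun a : S => c (a : K) * (a : K) ^ (j : ℕ))
  have h0 := Matrix.eq_zero_of_vecMul_eq_zero hM hv
  have hemp : S = ∅ := by
    by_contra hne
    obtain ⟨a, ha⟩ := Finset.nonempty_iff_ne_empty.2 hne
    have := congrFun h0 (e.symm ⟨a, ha⟩)
    simp at this
    exact hc1 a ha this
  funext a
  by_contra hne
  have : a ∈ S := by simp [hS, hne]
  rw [hemp] at this
  simp at this

open Classical in
/-- the code has at least `2 ^ n / n ^ D` words (`n = 2 ^ m = |K|`) -/
theorem card_code {m : ℕ} (hK : Fintype.card K = 2 ^ m) (D : ℕ) :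
    2 ^ (2 ^ m) ≤ (univ.filter fun x : K → Bool => InCode D x).card * (2 ^ m) ^ D := by
  have hchar : CharP K 2 := by
    have hodd : ringChar K = 2 := by
      obtain ⟨p, hp⟩ := CharP.exists K
      have := hp
      obtain ⟨n, hprime, hn⟩ := FiniteField.card K p
      have : p ∣ 2 ^ m := by
        rw [← hK, hn]
        exact dvd_pow_self p n.ne_zero
      have h2 : p = 2 := (Nat.prime_dvd_prime_iff_eq hprime Nat.prime_two).1 (hprime.dvd_of_dvd_pow this)
      subst h2
      exact ringChar.eq K 2
    rw [← hodd]
    exact ringChar.charP K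
  let Φ : (K → Bool) → (Fin D → K) := fun x j => ∑ a : K, (if x a = true then a ^ (j : ℕ) else 0)
  have hΦ : ∀ x y : K → Bool, Φ (fun a => xor (x a) (y a)) = Φ x + Φ y := by
    intro x y
    funext j
    simp only [Φ, Pi.add_apply, ← Finset.sum_add_distrib]
    refine Finset.sum_congr rfl fun a _ => ?_
    rcases Bool.eq_false_or_eq_true (x a) with h | h <;>
      rcases Bool.eq_false_or_eq_true (y a) with h' | h' <;>
        simp [h, h', CharTwo.add_self_eq_zero]
  have hker : ∀ x : K → Bool, InCode D x ↔ Φ x = 0 := by
    intro x
    constructor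
    · intro h
      funext j
      exact h j j.2
    · intro h j hj
      exact congrFun h ⟨j, hj⟩
  have hfib : ∀ b ∈ (univ : Finset (Fin D → K)),
      (univ.filter fun x : K → Bool => Φ x = b).card ≤
        (univ.filter fun x : K → Bool => InCode D x).card := by
    intro b _
    by_cases hb : ∃ x0, Φ x0 = b
    · obtain ⟨x0, hx0⟩ := hb
      refine Finset.card_le_card_of_injOn (fun x a => xor (x a) (x0 a)) ?_ ?_
      · intro x hx
        have hx' : Φ x = b := by simpa using hx
        have : Φ (fun a => xor (x a) (x0 a)) = 0 := by
          rw [hΦ, hx', hx0]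
          funext j
          exact CharTwo.add_self_eq_zero _
        simpa [hker] using this
      · intro x _ y _ hxy
        funext a
        have := congrFun hxy a
        simp only at this
        cases h1 : x a <;> cases h2 : y a <;> cases h3 : x0 a <;> simp_all
    · have : (univ.filter fun x : K → Bool => Φ x = b) = ∅ := by
        rw [Finset.filter_eq_empty_iff]
        intro x _ hx
        exact hb ⟨x, hx⟩
      rw [this]
      simp
  have h1 := Finset.card_eq_sum_card_fiberwise (s := (univ : Finset (K → Bool)))
    (t := (univ : Finset (Fin D → K))) (f := Φ) (fun x _ => Finset.mem_coe.2 (mem_univ _))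
  have h2 : (univ : Finset (K → Bool)).card = 2 ^ (2 ^ m) := by
    rw [Finset.card_univ, Fintype.card_fun, Fintype.card_bool, hK]
  have h3 : (univ : Finset (Fin D → K)).card = (2 ^ m) ^ D := by
    rw [Finset.card_univ, Fintype.card_fun, Fintype.card_fin, hK]
  rw [← h2, h1]
  calc ∑ b, (univ.filter fun x : K → Bool => Φ x = b).card
      ≤ ∑ _b : Fin D → K, (univ.filter fun x : K → Bool => InCode D x).card :=
        Finset.sum_le_sum hfib
    _ = _ := by rw [Finset.sum_const, h3, smul_eq_mul, mul_comm]

end Vale.Agent.P336
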