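import Vale.Agent.P336.Code
import Vale.Agent.P336.Avg

/-!
# P336: depth three with few incidences per middle gate
-/

namespace Vale.Agent.P336

open Finset

/-- A middle gate on the variables `V`: the AND of `len` bottom gates. The bottom gate `j` is an
arbitrary Boolean function that depends only on the variables in the finite set `reads j`. -/
structure MiddleGate (V : Type) where
  /-- the number of bottom gates -/
  len : ℕ
  /-- the variables read by the bottom gate `j` -/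
  reads : Fin len → Finset V
  /-- the Boolean function computed by the bottom gate `j` -/
  bottom : Fin len → (V → Bool) → Bool
  /-- the bottom gate `j` depends only on the variables in `reads j` -/
  depends : ∀ j x y, (∀ v ∈ reads j, x v = y v) → bottom j x = bottom j y

/-- the middle gate outputs `1` on the input `x` -/
def MiddleGate.Accepts {V : Type} (g : MiddleGate V) (x : V → Bool) : Prop :=
  ∀ j, g.bottom j x = true

open Classical in
theorem card_accepts {K : Type} [Field K] [Fintype K] [DecidableEq K] {m w k D : ℕ}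
    (hm : 1 ≤ m) (hK : Fintype.card K = 2 ^ m) (hD : 1 ≤ D) (hw : 1 ≤ w)
    (h1 : D * (8 * m) ^ (2 * w) ≤ 2 ^ m) (h2 : 2 * w * k ≤ D) (g : MiddleGate K)
    (hk : ∀ j, (g.reads j).card ≤ k) (hinc : ∑ j, (g.reads j).card ≤ w * 2 ^ m)
    (hf : ∀ x, g.Accepts x → InCode D x) :
    (univ.filter fun x : K → Bool => g.Accepts x).card * 2 ^ (2 * m * D) ≤ 2 ^ (2 ^ m) := by
  set S : Finset (K → Bool) := univ.filter fun x : K → Bool => g.Accepts x with hS
  rcases Finset.eq_empty_or_nonempty S with hemp | ⟨x₀, hx₀⟩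
  · rw [hemp]; simp
  have hmem : ∀ x, x ∈ S ↔ g.Accepts x := by intro x; simp [hS]
  have hglue : ∀ z : K → Bool, (∀ j, ∃ x ∈ S, ∀ v ∈ g.reads j, x v = z v) → z ∈ S := by
    intro z hz
    rw [hmem]
    intro j
    obtain ⟨x, hx, hxz⟩ := hz j
    rw [← g.depends j x z hxz]
    exact (hmem x).1 hx j
  have hdist : ∀ x ∈ S, ∀ y ∈ S, (univ.filter fun a => x a ≠ y a).card ≤ D → x = y :=
    fun x hx y hy h => dist_code (hf x ((hmem x).1 hx)) (hf y ((hmem y).1 hy)) h
  have hT : ∀ v, (J g.reads v).Nonempty := by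
    intro v
    by_contra hne
    rw [Finset.not_nonempty_iff_eq_empty] at hne
    have hnone : ∀ j, v ∉ g.reads j := by
      intro j hj
      have : j ∈ J g.reads v := by simp [J, hj]
      rw [hne] at this
      simp at this
    let z : K → Bool := Function.update x₀ v (!x₀ v)
    have hz : z ∈ S := by
      apply hglue
      intro j
      refine ⟨x₀, hx₀, fun a ha => ?_⟩
      have : a ≠ v := fun h => hnone j (h ▸ ha)
      simp [z, this]
    have hzx : z = x₀ := by
      apply hdist z hz x₀ hx₀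
      calc (univ.filter fun a => z a ≠ x₀ a).card ≤ ({v} : Finset K).card := by
            apply Finset.card_le_card
            intro a ha
            by_contra hav
            have : a ≠ v := by simpa using hav
            simp [z, this] at ha
        _ ≤ D := by simpa using hD
    have := congrFun hzx v
    simp [z] at this
  have hdouble : ∑ v, (J g.reads v).card = ∑ j, (g.reads j).card := by
    simp only [J, Finset.card_eq_sum_ones, Finset.sum_filter]
    rw [Finset.sum_comm]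
    refine Finset.sum_congr rfl fun j _ => ?_
    simp
  set U : Finset K := univ.filter fun v => (J g.reads v).card ≤ 2 * w with hU
  have hUcard : 2 ^ m ≤ 2 * U.card := by
    have hcompl : (univ.filter fun v => ¬ (J g.reads v).card ≤ 2 * w).card * (2 * w + 1) ≤
        w * 2 ^ m := by
      calc (univ.filter fun v => ¬ (J g.reads v).card ≤ 2 * w).card * (2 * w + 1)
          = ∑ _v ∈ univ.filter fun v => ¬ (J g.reads v).card ≤ 2 * w, (2 * w + 1) := by
            rw [Finset.sum_const, smul_eq_mul]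
        _ ≤ ∑ v ∈ univ.filter fun v => ¬ (J g.reads v).card ≤ 2 * w, (J g.reads v).card := by
            refine Finset.sum_le_sum fun v hv => ?_
            have : ¬ (J g.reads v).card ≤ 2 * w := (mem_filter.1 hv).2
            omega
        _ ≤ ∑ v, (J g.reads v).card :=
            Finset.sum_le_sum_of_subset (Finset.filter_subset _ _)
        _ ≤ w * 2 ^ m := by rw [hdouble]; exact hinc
    have htot := Finset.card_filter_add_card_filter_not (s := (univ : Finset K))
      (fun v => (J g.reads v).card ≤ 2 * w)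
    rw [Finset.card_univ, hK] at htot
    by_contra hcon
    push Not at hcon
    have h3 : 2 ^ m < 2 * (univ.filter fun v => ¬ (J g.reads v).card ≤ 2 * w).card := by
      rw [← hU] at htot
      omega
    nlinarith
  have ht : 0 < 8 * m := by omega
  have hover : ∀ v ∈ U, (U.filter fun v' => ¬ Disjoint (J g.reads v) (J g.reads v')).card ≤ D := by
    intro v hv
    have hv' : (J g.reads v).card ≤ 2 * w := (mem_filter.1 hv).2
    calc (U.filter fun v' => ¬ Disjoint (J g.reads v) (J g.reads v')).card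
        ≤ ((J g.reads v).biUnion g.reads).card := by
          apply Finset.card_le_card
          intro v' hv'
          have hd := (mem_filter.1 hv').2
          obtain ⟨j, hj, hj'⟩ := Finset.not_disjoint_iff.1 hd
          refine Finset.mem_biUnion.2 ⟨j, hj, ?_⟩
          simpa [J] using hj'
      _ ≤ ∑ j ∈ J g.reads v, (g.reads j).card := Finset.card_biUnion_le
      _ ≤ ∑ _j ∈ J g.reads v, k := Finset.sum_le_sum fun j _ => hk j
      _ = (J g.reads v).card * k := by rw [Finset.sum_const, smul_eq_mul]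
      _ ≤ 2 * w * k := Nat.mul_le_mul_right _ hv'
      _ ≤ D := h2
  have hμ : (D : ℝ) / 2 ≤ ∑ v ∈ U, (((8 * m : ℕ) : ℝ)⁻¹) ^ (J g.reads v).card := by
    have htR : (0 : ℝ) < ((8 * m : ℕ) : ℝ) := by exact_mod_cast ht
    have h3 : ∀ v ∈ U, (((8 * m : ℕ) : ℝ)⁻¹) ^ (2 * w) ≤
        (((8 * m : ℕ) : ℝ)⁻¹) ^ (J g.reads v).card := by
      intro v hv
      refine pow_le_pow_of_le_one (by positivity) ?_ (mem_filter.1 hv).2
      apply inv_le_one_of_one_le₀
      exact_mod_cast ht
    have h4 := Finset.sum_le_sum h3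
    rw [Finset.sum_const, nsmul_eq_mul] at h4
    refine le_trans ?_ h4
    have h5 : (D : ℝ) * ((8 * m : ℕ) : ℝ) ^ (2 * w) ≤ 2 ^ m := by exact_mod_cast h1
    have h6 : (2 : ℝ) ^ m ≤ 2 * (U.card : ℝ) := by exact_mod_cast hUcard
    rw [inv_pow, ← div_eq_mul_inv, le_div_iff₀ (by positivity)]
    linarith
  obtain ⟨φ, hφ⟩ := exists_colouring ht hD g.reads U hμ hover
  have hsum : 2 * m * D ≤ ∑ c, min (W g.reads φ c).card D := by
    have h3 : ((2 * m * D : ℕ) : ℝ) ≤ ((∑ c, min (W g.reads φ c).card D : ℕ) : ℝ) := by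
      refine le_trans ?_ hφ
      push_cast
      have : (0 : ℝ) ≤ (m : ℝ) * D := by positivity
      nlinarith
    exact_mod_cast h3
  have hfin := card_le_of_colour g.reads φ hT S hglue hdist
  rw [hK] at hfin
  refine le_trans ?_ hfin
  exact Nat.mul_le_mul_left _ (Nat.pow_le_pow_right (by norm_num) hsum)

open Classical in
/-- the counting form -/
theorem main_nat {K : Type} [Field K] [Fintype K] [DecidableEq K] {m w k D : ℕ}
    (hm : 1 ≤ m) (hK : Fintype.card K = 2 ^ m) (hD : 1 ≤ D) (hw : 1 ≤ w)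
    (h1 : D * (8 * m) ^ (2 * w) ≤ 2 ^ m) (h2 : 2 * w * k ≤ D) {s : ℕ}
    (G : Fin s → MiddleGate K)
    (hk : ∀ i j, ((G i).reads j).card ≤ k)
    (hinc : ∀ i, ∑ j, ((G i).reads j).card ≤ w * 2 ^ m)
    (hf : ∀ x, InCode D x ↔ ∃ i, (G i).Accepts x) : 2 ^ (m * D) ≤ s := by
  have hC : (univ.filter fun x : K → Bool => InCode D x).card ≤
      ∑ i, (univ.filter fun x : K → Bool => (G i).Accepts x).card := by
    calc (univ.filter fun x : K → Bool => InCode D x).card
        ≤ ((univ : Finset (Fin s)).biUnion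
            fun i => univ.filter fun x : K → Bool => (G i).Accepts x).card := by
          apply Finset.card_le_card
          intro x hx
          obtain ⟨i, hi⟩ := (hf x).1 (mem_filter.1 hx).2
          exact Finset.mem_biUnion.2 ⟨i, mem_univ _, mem_filter.2 ⟨mem_univ _, hi⟩⟩
      _ ≤ _ := Finset.card_biUnion_le
  have hS : (∑ i, (univ.filter fun x : K → Bool => (G i).Accepts x).card) * 2 ^ (2 * m * D) ≤
      s * 2 ^ (2 ^ m) := by
    rw [Finset.sum_mul]
    calc ∑ i, (univ.filter fun x : K → Bool => (G i).Accepts x).card * 2 ^ (2 * m * D)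
        ≤ ∑ _i : Fin s, 2 ^ (2 ^ m) := Finset.sum_le_sum fun i _ =>
          card_accepts hm hK hD hw h1 h2 (G i) (hk i) (hinc i) fun x hx => (hf x).2 ⟨i, hx⟩
      _ = s * 2 ^ (2 ^ m) := by rw [Finset.sum_const, Finset.card_univ, Fintype.card_fin, smul_eq_mul]
  have hsize := card_code (K := K) hK D
  have h3 : 2 ^ (2 ^ m) * 2 ^ (m * D) ≤ 2 ^ (2 ^ m) * s := by
    have h4 : (2 ^ m) ^ D = 2 ^ (m * D) := by rw [← pow_mul]
    rw [h4] at hsize
    have h5 : 2 ^ (2 * m * D) = 2 ^ (m * D) * 2 ^ (m * D) := by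
      rw [← pow_add]; congr 1; ring
    have h6 : (univ.filter fun x : K → Bool => InCode D x).card * 2 ^ (2 * m * D) ≤
        s * 2 ^ (2 ^ m) := (Nat.mul_le_mul_right _ hC).trans hS
    rw [h5] at h6
    calc 2 ^ (2 ^ m) * 2 ^ (m * D)
        ≤ ((univ.filter fun x : K → Bool => InCode D x).card * 2 ^ (m * D)) * 2 ^ (m * D) :=
          Nat.mul_le_mul_right _ hsize
      _ = (univ.filter fun x : K → Bool => InCode D x).card * (2 ^ (m * D) * 2 ^ (m * D)) := by ring
      _ ≤ s * 2 ^ (2 ^ m) := h6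
      _ = 2 ^ (2 ^ m) * s := by ring
  exact Nat.le_of_mul_le_mul_left h3 (by positivity)

/-- the real form -/
theorem main_real {ε : ℝ} (he0 : 0 < ε) (he1 : ε < 1) {m w k : ℕ} (hw : 1 ≤ w)
    (h1 : ((8 * m : ℕ) : ℝ) ^ (2 * w) ≤ ((2 : ℝ) ^ m) ^ ε)
    (h2 : ((2 * w * k : ℕ) : ℝ) ≤ ((2 : ℝ) ^ m) ^ (1 - ε))
    {K : Type} [Field K] [Fintype K] [DecidableEq K] (hK : Fintype.card K = 2 ^ m) {s : ℕ}
    (G : Fin s → MiddleGate K)
    (hk : ∀ i j, ((G i).reads j).card ≤ k)
    (hinc : ∀ i, ∑ j, ((G i).reads j).card ≤ w * 2 ^ m)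
    (hf : ∀ x, InCode ⌊((2 : ℝ) ^ m) ^ (1 - ε)⌋₊ x ↔ ∃ i, (G i).Accepts x) :
    (2 : ℝ) ^ (((2 : ℝ) ^ m) ^ (1 - ε)) ≤ s := by
  set y : ℝ := ((2 : ℝ) ^ m) ^ (1 - ε) with hy
  have hn1 : (1 : ℝ) ≤ (2 : ℝ) ^ m := one_le_pow₀ (by norm_num)
  have hy1 : 1 ≤ y := Real.one_le_rpow hn1 (by linarith)
  have hD : 1 ≤ ⌊y⌋₊ := Nat.le_floor (by simpa using hy1)
  have hDy : (⌊y⌋₊ : ℝ) ≤ y := Nat.floor_le (by linarith)
  have hm1 : 1 ≤ m := by
    by_contra h
    have : m = 0 := by omega
    subst this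
    have h3 : Fintype.card K = 1 := by simpa using hK
    have := Fintype.one_lt_card (α := K)
    omega
  have hprod : ((2 : ℝ) ^ m) ^ (1 - ε) * ((2 : ℝ) ^ m) ^ ε = (2 : ℝ) ^ m := by
    rw [← Real.rpow_add (by positivity)]
    simp
  have hcond : ⌊y⌋₊ * (8 * m) ^ (2 * w) ≤ 2 ^ m := by
    have : (⌊y⌋₊ : ℝ) * ((8 * m : ℕ) : ℝ) ^ (2 * w) ≤ (2 : ℝ) ^ m := by
      calc (⌊y⌋₊ : ℝ) * ((8 * m : ℕ) : ℝ) ^ (2 * w) ≤ y * ((2 : ℝ) ^ m) ^ ε := by
            apply mul_le_mul hDy h1 (by positivity) (by linarith)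
        _ = (2 : ℝ) ^ m := hprod
    exact_mod_cast this
  have h2' : 2 * w * k ≤ ⌊y⌋₊ := Nat.le_floor h2
  have hm2 : 2 ≤ m := by
    by_contra h
    have hm' : m = 1 := by omega
    subst hm'
    have h3 : (8 * 1) ^ (2 * w) ≤ 2 ^ 1 := by
      calc (8 * 1) ^ (2 * w) = 1 * (8 * 1) ^ (2 * w) := by ring
        _ ≤ ⌊y⌋₊ * (8 * 1) ^ (2 * w) := Nat.mul_le_mul_right _ hD
        _ ≤ 2 ^ 1 := hcond
    have h4 : (8 * 1) ^ (2 * 1) ≤ (8 * 1) ^ (2 * w) := Nat.pow_le_pow_right (by norm_num) (by omega)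
    omega
  have hmain := main_nat hm1 hK hD hw hcond h2' G hk hinc hf
  have hy2 : y ≤ (m * ⌊y⌋₊ : ℕ) := by
    have h3 : y < ⌊y⌋₊ + 1 := Nat.lt_floor_add_one y
    have h4 : (1 : ℝ) ≤ ⌊y⌋₊ := by exact_mod_cast hD
    have h5 : (2 : ℝ) ≤ m := by exact_mod_cast hm2
    push_cast
    nlinarith
  calc (2 : ℝ) ^ y ≤ (2 : ℝ) ^ ((m * ⌊y⌋₊ : ℕ) : ℝ) :=
        Real.rpow_le_rpow_of_exponent_le (by norm_num) hy2
    _ = ((2 ^ (m * ⌊y⌋₊) : ℕ) : ℝ) := by rw [Real.rpow_natCast]; push_cast; ring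
    _ ≤ s := by exact_mod_cast hmain

end Vale.Agent.P336
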