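import Mathlib

/-!
# P336: sets defined by local conditions with few incidences inside a code
-/

namespace Vale.Agent.P336

open Finset

variable {V : Type*} [Fintype V] [DecidableEq V] {ι : Type*} [Fintype ι] [DecidableEq ι]

/-- the bottom gates that read `v` -/
def J (T : ι → Finset V) (v : V) : Finset ι := univ.filter fun j => v ∈ T j

/-- the variables all of whose bottom gates have colour `c` -/
def W {t : ℕ} (T : ι → Finset V) (φ : ι → Fin t) (c : Fin t) : Finset V :=
  univ.filter fun v => ∀ j, v ∈ T j → φ j = c

/-- if a set `S` is closed under local gluing and its elements have pairwise distance `> D`,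
then the variables in (parts of size `≤ D` of) the colour classes are determined by the others -/
theorem card_le_of_colour {t D : ℕ} (T : ι → Finset V) (φ : ι → Fin t)
    (hT : ∀ v, (J T v).Nonempty)
    (S : Finset (V → Bool))
    (hglue : ∀ z : V → Bool, (∀ j, ∃ x ∈ S, ∀ v ∈ T j, x v = z v) → z ∈ S)
    (hdist : ∀ x ∈ S, ∀ y ∈ S, (univ.filter fun a => x a ≠ y a).card ≤ D → x = y) :
    S.card * 2 ^ (∑ c, min (W T φ c).card D) ≤ 2 ^ Fintype.card V := by
  classical
  have hsub : ∀ c, ∃ U ⊆ W T φ c, U.card = min (W T φ c).card D := fun c =>
    Finset.exists_subset_card_eq (min_le_left _ _)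
  choose U hU hUc using hsub
  have hdisj : ∀ c c', c ≠ c' → Disjoint (U c) (U c') := by
    intro c c' hne
    rw [Finset.disjoint_left]
    intro v hv hv'
    have h1 := hU c hv
    have h2 := hU c' hv'
    simp only [W, mem_filter, mem_univ, true_and] at h1 h2
    obtain ⟨j, hj⟩ := hT v
    have hj' : v ∈ T j := by simpa [J] using hj
    exact hne ((h1 j hj').symm.trans (h2 j hj'))
  let A : Finset V := univ.biUnion U
  have hA : A.card = ∑ c, min (W T φ c).card D := by
    rw [Finset.card_biUnion (fun c _ c' _ h => hdisj c c' h)]
    exact Finset.sum_congr rfl fun c _ => hUc c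
  -- elements of `S` are determined outside `A`
  have hinj : ∀ x ∈ S, ∀ y ∈ S, (∀ v, v ∉ A → x v = y v) → x = y := by
    intro x hx y hy hxy
    have hc : ∀ c, ∀ v ∈ U c, x v = y v := by
      intro c v hv
      let z : V → Bool := fun a => if a ∈ U c then y a else x a
      have hz : z ∈ S := by
        apply hglue
        intro j
        by_cases hj : φ j = c
        · refine ⟨y, hy, fun a ha => ?_⟩
          by_cases hac : a ∈ U c
          · simp [z, hac]
          · have : a ∉ A := by
              intro haA
              obtain ⟨c', _, hc'⟩ := Finset.mem_biUnion.1 haA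
              have h1 := hU c' hc'
              simp only [W, mem_filter, mem_univ, true_and] at h1
              have : c' = c := (h1 j ha).symm.trans hj
              exact hac (this ▸ hc')
            simp [z, hac, hxy a this]
        · refine ⟨x, hx, fun a ha => ?_⟩
          have hac : a ∉ U c := by
            intro h
            have h1 := hU c h
            simp only [W, mem_filter, mem_univ, true_and] at h1
            exact hj (h1 j ha)
          simp [z, hac]
      have hzx : z = x := by
        apply hdist z hz x hx
        calc (univ.filter fun a => z a ≠ x a).card ≤ (U c).card := by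
              apply Finset.card_le_card
              intro a ha
              by_contra hac
              simp [z, hac] at ha
          _ ≤ D := by rw [hUc]; exact min_le_right _ _
      have := congrFun hzx v
      simp [z, hv] at this
      exact this.symm
    funext v
    by_cases hv : v ∈ A
    · obtain ⟨c, _, hcv⟩ := Finset.mem_biUnion.1 hv
      exact hc c v hcv
    · exact hxy v hv
  have h1 : S.card ≤ 2 ^ (Fintype.card V - A.card) := by
    have : S.card ≤ Fintype.card ({v // v ∉ A} → Bool) := by
      rw [← Finset.card_univ]
      refine Finset.card_le_card_of_injOn (fun x v => x v.1) (fun _ _ => by simp) ?_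
      intro x hx y hy hxy
      exact hinj x hx y hy fun v hv => congrFun hxy ⟨v, hv⟩
    refine this.trans (le_of_eq ?_)
    rw [Fintype.card_fun, Fintype.card_bool]
    congr 1
    rw [Fintype.card_subtype_compl, Fintype.card_coe]
  have hAV : A.card ≤ Fintype.card V := Finset.card_le_univ A
  rw [← hA]
  calc S.card * 2 ^ A.card ≤ 2 ^ (Fintype.card V - A.card) * 2 ^ A.card := Nat.mul_le_mul_right _ h1
    _ = 2 ^ Fintype.card V := by rw [← pow_add, Nat.sub_add_cancel hAV]

end Vale.Agent.P336
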